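import Vale.Agent.P183M.IF3
import Vale.Agent.P183M.Cvl
import Vale.Agent.P183AU.NF
import Vale.Agent.P183LT.Key
import Vale.Agent.P183NC.Node

/-!
An automorphism that normalises two nodes normalises the socle of their intersection.
-/

namespace Vale.Agent.P183MG

open Matrix Subgroup Vale.Agent.P183A Vale.Agent.P183NK Vale.Agent.P183M Vale.Agent.P183AU

theorem rel_simple {G : Type} [Group G] {E K T : Subgroup G} (R : G → G → Prop)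
    (hE : IsSimpleGroup E) (hC : centralizer (E : Set G) ⊓ T = ⊥) (h1 : E ≤ K) (h2 : K ≤ T)
    (hn : Nm K E) (one : R 1 1) (mul : ∀ {x y x' y'}, R x y → R x' y' → R (x * x') (y * y'))
    (fn : ∀ {x y y'}, R x y → R x y' → y = y') (tot : ∀ x ∈ K, ∃ y ∈ K, R x y)
    (tot' : ∀ y ∈ K, ∃ x ∈ K, R x y) : ∀ x ∈ E, ∃ y ∈ E, R x y := by
  have inv : ∀ {x y}, x ∈ K → R x y → R x⁻¹ y⁻¹ := fun {x y} hx h => by
    obtain ⟨z, -, hz⟩ := tot _ (inv_mem hx)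
    have := mul h hz
    rw [mul_inv_cancel] at this
    rwa [inv_eq_of_mul_eq_one_right (fn this one)]
  let E' : Subgroup G :=
    { carrier := {x | x ∈ K ∧ ∃ y ∈ E, R x y}
      one_mem' := ⟨one_mem _, 1, one_mem _, one⟩
      mul_mem' := fun ⟨a, y, b, c⟩ ⟨a', y', b', c'⟩ => ⟨mul_mem a a', _, mul_mem b b', mul c c'⟩
      inv_mem' := fun ⟨a, y, b, c⟩ => ⟨inv_mem a, _, inv_mem b, inv a c⟩ }
  have h3 : Nm K E' := fun k hk x ⟨a, y, b, c⟩ =>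
    let ⟨z, hz, e⟩ := tot k hk
    ⟨mul_mem (mul_mem hk a) (inv_mem hk), _, hn z hz y b, mul (mul e c) (inv hk e)⟩
  rcases P183LT.le_or_bot hE hC (R := E') (fun _ h => h2 h.1) (h3.mono h1)
    (hn.mono fun _ h => h.1) with e | e
  · exact fun x hx => (e hx).2
  · obtain ⟨y, hy⟩ := exists_ne (1 : E)
    obtain ⟨x, hx, c⟩ := tot' y (h1 y.2)
    rw [show x = 1 from e.le ⟨hx, y, y.2, c⟩] at c
    exact absurd (Subtype.ext (fn c one)) hy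

variable {p : ℕ} [Fact p.Prime] {G : Type} [Group G] {T : Subgroup G} {C : Cv p T}
  {θ : C.R →+* kk p} {g g' : Matrix (Fin C.d) (Fin C.d) (kk p)} {x y y' : G}

theorem ne_zero {ω : C.E} {r : kk p} {M : Matrix (Fin C.d) (Fin C.d) (kk p)}
    (h : tw θ C.D.ρ ω = r • M) : r ≠ 0 := fun e => by
  have := map_mul (tw θ C.D.ρ) ω ω⁻¹
  rw [mul_inv_cancel, map_one, h, e, zero_smul, zero_mul] at this
  simpa using congrFun (congrFun this C.D.z) C.D.z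

theorem ker {ω ω' : C.E} {r : kk p} (h : tw θ C.D.ρ ω = r • tw θ C.D.ρ ω') : C.θ ω = C.θ ω' := by
  have key : ∀ {ω ω' : C.E} {r : kk p}, tw θ C.D.ρ ω = r • tw θ C.D.ρ ω' →
      (C.D.ρ (ω * ω'⁻¹)).map θ = r • 1 := fun {ω ω' r} h => by
    change tw θ C.D.ρ _ = _
    rw [map_mul, h, smul_mul_assoc, ← map_mul, mul_inv_cancel, map_one]
  have h1 := key h
  have h2 := key (ω := ω') (ω' := ω) (r := r⁻¹) (by rw [h, inv_smul_smul₀ (ne_zero h)])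
  have h3 : (((C.D.ρ (ω * ω'⁻¹)).map C.D.σ)ᵀ).map θ = r⁻¹ • 1 := by
    rw [← Matrix.mul_one (_ : Matrix _ _ C.R)ᵀ, ← mul_nonsing_inv _ C.cd.nondeg, ← Matrix.mul_assoc,
      Adj.rho C.cd, _root_.mul_inv_rev, inv_inv, Matrix.map_mul, Matrix.map_mul, h2,
      Matrix.mul_smul, Matrix.mul_one, Matrix.smul_mul, ← Matrix.map_mul,
      mul_nonsing_inv _ C.cd.nondeg, Matrix.map_one _ (map_zero θ) (map_one θ)]
  rw [← mul_inv_eq_one, ← map_inv, ← map_mul, C.ker]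
  generalize C.D.ρ (ω * ω'⁻¹) = M at h1 h3
  clear key h2 h
  refine ⟨M C.D.z C.D.z, Matrix.ext fun i j => sub_eq_zero.1 (zero_of C.cd θ ?_ ?_)⟩
  · have a := congrFun (congrFun h1 i) j
    have b := congrFun (congrFun h1 C.D.z) C.D.z
    clear h1 h3
    by_cases e : i = j <;> simp_all
  · have a := congrFun (congrFun h3 j) i
    have b := congrFun (congrFun h3 C.D.z) C.D.z
    clear h1 h3
    by_cases e : i = j <;> simp_all [eq_comm]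

/-- `y` is the image of `x` under conjugation with `g`. -/
def Rel (θ : C.R →+* kk p) (g g' : Matrix (Fin C.d) (Fin C.d) (kk p)) (x y : G) : Prop :=
  ∃ ω ω' r, C.θ ω = x ∧ C.θ ω' = y ∧ tw θ C.D.ρ ω' = (r : kk p) • (g * tw θ C.D.ρ ω * g')

theorem Rel.of (h : Rel θ g g' x y) {ω : C.E} (e : C.θ ω = x) :
    ∃ ω' r, C.θ ω' = y ∧ tw θ C.D.ρ ω' = (r : kk p) • (g * tw θ C.D.ρ ω * g') := by
  obtain ⟨ω₁, ω', r, h1, h2, h3⟩ := h
  obtain ⟨c, hc⟩ := C.scal_of (h1.trans e.symm)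
  refine ⟨ω', r * θ c, h2, ?_⟩
  have : tw θ C.D.ρ ω₁ = θ c • tw θ C.D.ρ ω := by
    change (C.D.ρ ω₁).map θ = θ c • (C.D.ρ ω).map θ
    ext i j
    simp [hc]
  rw [h3, this, Matrix.mul_smul, Matrix.smul_mul, smul_smul]

theorem Rel.fn (h : Rel θ g g' x y) (h' : Rel θ g g' x y') : y = y' := by
  obtain ⟨ω, ω₁, r, h1, rfl, h3⟩ := h
  obtain ⟨ω₂, s, rfl, h5⟩ := h'.of h1
  exact ker (θ := θ) (r := r * s⁻¹) (by rw [h3, h5, smul_smul, inv_mul_cancel_right₀ (ne_zero h5)])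

theorem Rel.symm (e : g' * g = 1) (h : Rel θ g g' x y) : Rel θ g' g y x := by
  obtain ⟨ω, ω', r, h1, h2, h3⟩ := h
  refine ⟨ω', ω, r⁻¹, h2, h1, ?_⟩
  rw [h3, Matrix.mul_smul, Matrix.smul_mul, inv_smul_smul₀ (ne_zero h3), ← mul_assoc, ← mul_assoc, e,
    one_mul, mul_assoc, e, mul_one]

theorem mg : MG := by
  intro p _ G _ _ H T x b Y Y' Z hR h1 h2 h3 h4 h5 C θ g g' _ e e' h ω hω
  have nm := fun {u} (a : x ≤ u) (c : u ≤ Z) => hR.1.nomod a (c.trans h5)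
  have ha : x ≤ Y ⊓ Y' := le_inf h1 h2
  have hZ : EE H Y ≤ EE H Z := EE_mono (nm h1 h3) (nm (h1.trans h3) le_rfl) h3
  have hs := hR.2.2.2 _ ha ((inf_le_left.trans h3).trans h5)
  have tot : ∀ {g g' : Matrix (Fin C.d) (Fin C.d) (kk p)}, (∀ W, W = Y ∨ W = Y' → ∀ ω,
      C.θ ω ∈ EE H W → ∃ ω' r, C.θ ω' ∈ EE H W ∧
        tw θ C.D.ρ ω' = (r : kk p) • (g * tw θ C.D.ρ ω * g')) →
      ∀ u ∈ EE H Y ⊓ EE H Y', ∃ v ∈ EE H Y ⊓ EE H Y', Rel θ g g' u v := fun h u hu => by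
    obtain ⟨ω, rfl⟩ := C.exists_θ (hZ hu.1)
    obtain ⟨ω₁, r, a1, a2⟩ := h Y (Or.inl rfl) ω hu.1
    obtain ⟨ω₂, s, b1, b2⟩ := h Y' (Or.inr rfl) ω hu.2
    exact ⟨_, ⟨a1, Rel.fn ⟨ω, ω₂, s, rfl, rfl, b2⟩ ⟨ω, ω₁, r, rfl, rfl, a2⟩ ▸ b1⟩,
      ω, ω₁, r, rfl, rfl, a2⟩
  obtain ⟨y, hy, k⟩ := rel_simple (K := EE H Y ⊓ EE H Y') (Rel θ g g') hs.1 hs.2
    (le_inf (EE_mono (nm ha (inf_le_left.trans h3)) (nm h1 h3) inf_le_left)
      (EE_mono (nm ha (inf_le_left.trans h3)) (nm h2 h4) inf_le_right))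
    (inf_le_left.trans ((EE_mono (nm h1 h3) (hR.1.nomod ((h1.trans h3).trans h5) le_rfl)
      (h3.trans h5)).trans hR.2.1))
    ((nm_EE H _).mono (inf_le_inf (EE_le (nm h1 h3)) (EE_le (nm h2 h4))))
    ⟨1, 1, 1, map_one _, map_one _, by rw [map_one, mul_one, e, one_smul]⟩ (by
      rintro _ _ _ _ ⟨a, a', r, rfl, rfl, k⟩ ⟨c, c', s, rfl, rfl, k'⟩
      refine ⟨a * c, a' * c', r * s, map_mul _ _ _, map_mul _ _ _, ?_⟩
      rw [map_mul, map_mul, k, k', smul_mul_smul_comm, mul_assoc (g * _) g', ← mul_assoc g',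
        ← mul_assoc g', e', one_mul]
      simp only [mul_assoc]) Rel.fn (tot fun W hW ω k => (h W hW ω k).1)
    (fun v hv => (tot (fun W hW ω k => (h W hW ω k).2) v hv).imp fun _ k => ⟨k.1, k.2.symm e⟩) _ hω
  obtain ⟨ω', r, rfl, k'⟩ := k.of rfl
  exact ⟨ω', r, hy, k'⟩

end Vale.Agent.P183MG
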